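import Vale.Agent.P067.Full.Spec

/-!
The sets defining the groups are subgroups.
-/

open Matrix Finset Polynomial

noncomputable section

namespace Vale.Agent.P067.Full.Grp

variable {n M p m : ℕ}

/-- Scalars, as a ring map. -/
def scH (p m : ℕ) : ZMod p →+* Rm p m := (Ideal.Quotient.mk _).comp Polynomial.C

lemma sc_eq (c : ZMod p) : sc p m c = scH p m c := rfl

lemma sc_zero : sc p m 0 = 0 := map_zero (scH p m)

lemma sc_one : sc p m 1 = 1 := map_one (scH p m)

lemma sc_add (c d : ZMod p) : sc p m (c + d) = sc p m c + sc p m d := map_add (scH p m) c d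

lemma sc_mul (c d : ZMod p) : sc p m (c * d) = sc p m c * sc p m d := map_mul (scH p m) c d

lemma exists_decomp (x : Rm p m) : ∃ c y, x = sc p m c + tt p m * y := by
  obtain ⟨q, rfl⟩ := Ideal.Quotient.mk_surjective x
  refine ⟨q.coeff 0, Ideal.Quotient.mk _ q.divX, ?_⟩
  rw [sc, tt, ← map_mul, ← map_add, add_comm, Polynomial.X_mul_divX_add]

instance instFiniteRm [NeZero p] : Finite (Rm p m) := by
  refine Finite.of_surjective
    (fun c : Fin m → ZMod p => Ideal.Quotient.mk _ (∑ i : Fin m, C (c i) * X ^ (i : ℕ))) fun x => ?_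
  obtain ⟨q, rfl⟩ := Ideal.Quotient.mk_surjective x
  refine ⟨fun i => q.coeff i, Ideal.Quotient.eq.2 ?_⟩
  rw [Ideal.mem_span_singleton, Polynomial.X_pow_dvd_iff]
  intro d hd
  rw [coeff_sub, finsetSum_coeff]
  simp only [coeff_C_mul_X_pow]
  rw [Finset.sum_eq_single (⟨d, hd⟩ : Fin m) (fun i _ hi => if_neg fun h => hi (Fin.ext h.symm))
    (fun h => absurd (mem_univ _) h), if_pos rfl, sub_self]

theorem finite_Ga [NeZero p] : Finite (Ga n M p m) := inferInstance

lemma crosses_iff (v a b : Fin n) : crosses v a b ↔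
    (a.1 ≤ v.1 ∧ v.1 < b.1) ∨ (b.1 < a.1 ∧ (a.1 ≤ v.1 ∨ v.1 < b.1)) := Iff.rfl

lemma not_crosses_trans {v a b d : Fin n} (hab : a ≠ b) (hbd : b ≠ d) (h1 : ¬ crosses v a b)
    (h2 : ¬ crosses v b d) :
    a ≠ d ∧ ¬ crosses v a d ∧ te p m a b * te p m b d = te p m a d := by
  rw [ne_eq, Fin.ext_iff] at *
  simp only [crosses_iff] at *
  refine ⟨by omega, by omega, ?_⟩
  unfold te
  simp only [Fin.lt_def]
  split_ifs <;> first | omega | simp

lemma nxt_val (a : Fin n) : (nxt a).1 = if a.1 + 1 = n then 0 else a.1 + 1 := by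
  show (a.1 + 1) % n = _
  split_ifs with h
  · rw [h, Nat.mod_self]
  · exact Nat.mod_eq_of_lt (by have := a.2; omega)

lemma nxt_ne (hn : 2 ≤ n) (a : Fin n) : a ≠ nxt a := by
  rw [ne_eq, Fin.ext_iff, nxt_val]
  split_ifs <;> omega

lemma nf_zero : (0 : Mn n p m) ∈ nf n p m := fun _ _ _ => Ideal.zero_mem _

lemma nf_add {x y : Mn n p m} (hx : x ∈ nf n p m) (hy : y ∈ nf n p m) : x + y ∈ nf n p m :=
  fun a b h => Ideal.add_mem _ (hx a b h) (hy a b h)

lemma nf_sum {ι : Type*} (s : Finset ι) (x : ι → Mn n p m) (h : ∀ i ∈ s, x i ∈ nf n p m) :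
    ∑ i ∈ s, x i ∈ nf n p m := by
  classical
  induction s using Finset.induction_on with
  | empty => simpa using nf_zero
  | insert a s ha ih =>
    rw [Finset.sum_insert ha]
    exact nf_add (h a (mem_insert_self a s)) (ih fun i hi => h i (mem_insert_of_mem hi))

lemma nf_mul {x y : Mn n p m} (hx : x ∈ nf n p m) (hy : y ∈ nf n p m) : x * y ∈ nf n p m := by
  intro a b hab
  rw [Matrix.mul_apply]
  refine Ideal.sum_mem _ fun c _ => ?_
  rcases le_or_gt c a with h | h
  · exact Ideal.mul_mem_right _ _ (hx a c h)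
  · exact Ideal.mul_mem_left _ _ (hy c b (hab.trans h.le))

lemma nfJ_zero (J : Finset (Fin n)) : (0 : Mn n p m) ∈ nfJ n p m J :=
  ⟨0, fun _ _ _ _ _ => rfl, fun a b => by simp [sc_zero]⟩

lemma nfJ_add {J : Finset (Fin n)} {x y : Mn n p m} (hx : x ∈ nfJ n p m J)
    (hy : y ∈ nfJ n p m J) : x + y ∈ nfJ n p m J := by
  obtain ⟨c, hc, hx⟩ := hx
  obtain ⟨d, hd, hy⟩ := hy
  refine ⟨c + d, fun v hv a b h => by simp [hc v hv a b h, hd v hv a b h], fun a b => ?_⟩
  rw [Matrix.add_apply, hx, hy, Pi.add_apply, Pi.add_apply, sc_add]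
  split_ifs <;> ring

lemma nfJ_sum {J : Finset (Fin n)} {ι : Type*} (s : Finset ι) (x : ι → Mn n p m)
    (h : ∀ i ∈ s, x i ∈ nfJ n p m J) : ∑ i ∈ s, x i ∈ nfJ n p m J := by
  classical
  induction s using Finset.induction_on with
  | empty => simpa using nfJ_zero J
  | insert a s ha ih =>
    rw [Finset.sum_insert ha]
    exact nfJ_add (h a (mem_insert_self a s)) (ih fun i hi => h i (mem_insert_of_mem hi))

lemma nfJ_subset_nf (J : Finset (Fin n)) : nfJ n p m J ⊆ nf n p m := by
  rintro x ⟨c, -, hx⟩ a b hab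
  rw [hx]
  split_ifs with h
  · exact Ideal.zero_mem _
  · unfold te
    rw [if_pos (lt_of_le_of_ne hab (Ne.symm h))]
    exact Ideal.mul_mem_left _ _ (Ideal.mem_span_singleton_self _)

lemma nfJ_mul {J : Finset (Fin n)} (hJ : J.Nonempty) {x y : Mn n p m} (hx : x ∈ nfJ n p m J)
    (hy : y ∈ nfJ n p m J) : x * y ∈ nfJ n p m J := by
  classical
  obtain ⟨c, hc, hx⟩ := hx
  obtain ⟨d, hd, hy⟩ := hy
  obtain ⟨v₀, hv₀⟩ := hJ
  refine ⟨fun a b => ∑ e, if a ≠ e ∧ e ≠ b then c a e * d e b else 0, fun v hv a b h => ?_,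
    fun a b => ?_⟩
  · refine Finset.sum_eq_zero fun e _ => ?_
    split_ifs with he
    · by_cases h1 : crosses v a e
      · rw [hc v hv a e h1, zero_mul]
      · by_cases h2 : crosses v e b
        · rw [hd v hv e b h2, mul_zero]
        · exact absurd h (not_crosses_trans (p := p) (m := m) he.1 he.2 h1 h2).2.1
    · rfl
  rw [Matrix.mul_apply]
  by_cases hab : a = b
  · rw [if_pos hab]
    refine Finset.sum_eq_zero fun e _ => ?_
    rw [hx, hy]
    by_cases hae : a = e
    · rw [if_pos hae, zero_mul]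
    by_cases heb : e = b
    · rw [if_pos heb, mul_zero]
    rw [if_neg hae, if_neg heb]
    by_cases h1 : crosses v₀ a e
    · rw [hc v₀ hv₀ a e h1, sc_zero, zero_mul, zero_mul]
    · by_cases h2 : crosses v₀ e b
      · rw [hd v₀ hv₀ e b h2, sc_zero, zero_mul, mul_zero]
      · exact absurd hab (not_crosses_trans (p := p) (m := m) hae heb h1 h2).1
  · rw [if_neg hab, sc_eq, map_sum, Finset.sum_mul]
    refine Finset.sum_congr rfl fun e _ => ?_
    rw [hx, hy]
    by_cases hae : a = e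
    · simp [hae]
    by_cases heb : e = b
    · simp [heb]
    rw [if_neg hae, if_neg heb, if_pos ⟨hae, heb⟩, map_mul, ← sc_eq, ← sc_eq]
    by_cases h1 : crosses v₀ a e
    · simp [hc v₀ hv₀ a e h1, sc_zero]
    · by_cases h2 : crosses v₀ e b
      · simp [hd v₀ hv₀ e b h2, sc_zero]
      · rw [← (not_crosses_trans hae heb h1 h2).2.2]; ring

lemma coe_mul_sub_one (g h : Ga n M p m) :
    ((g * h : Ga n M p m) : BM n M p m) - 1 =
      ((g : BM n M p m) - 1) + ((h : BM n M p m) - 1) +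
        ((g : BM n M p m) - 1) * ((h : BM n M p m) - 1) := by
  rw [Units.val_mul]; simp only [sub_mul, mul_sub, one_mul, mul_one]; abel

/-- The composite as a ring map. -/
def compH (n M p m : ℕ) :
    BM n M p m →+* Matrix (Fin M × Fin n) (Fin M × Fin n) (Rm p m) :=
  (Matrix.compRingEquiv (Fin M) (Fin n) (Rm p m)).toRingHom

lemma compH_apply (g : BM n M p m) :
    compH n M p m g = Matrix.comp (Fin M) (Fin M) (Fin n) (Fin n) (Rm p m) g := rfl

lemma GSet_one (S : Finset (Fin M)) : (1 : Ga n M p m) ∈ GSet n M p m S := by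
  refine ⟨fun i j => ?_, fun i j _ => ?_, ?_⟩
  · simpa using nf_zero
  · simp
  · rw [← compH_apply, Units.val_one, map_one, det_one]

lemma GSet_mul {S : Finset (Fin M)} {g h : Ga n M p m} (hg : g ∈ GSet n M p m S)
    (hh : h ∈ GSet n M p m S) : g * h ∈ GSet n M p m S := by
  refine ⟨fun i j => ?_, fun i j hij => ?_, ?_⟩
  · rw [coe_mul_sub_one, Matrix.add_apply, Matrix.add_apply, Matrix.mul_apply]
    exact nf_add (nf_add (hg.1 i j) (hh.1 i j))
      (nf_sum _ _ fun k _ => nf_mul (hg.1 i k) (hh.1 k j))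
  · rw [coe_mul_sub_one, Matrix.add_apply, Matrix.add_apply, Matrix.mul_apply, hg.2.1 i j hij,
      hh.2.1 i j hij, zero_add, zero_add]
    refine Finset.sum_eq_zero fun k _ => ?_
    rcases hij with h' | h'
    · rw [hg.2.1 i k (Or.inl h'), zero_mul]
    · rw [hh.2.1 k j (Or.inr h'), mul_zero]
  · rw [← compH_apply, Units.val_mul, map_mul, det_mul, compH_apply, compH_apply, hg.2.2,
      hh.2.2, one_mul]

lemma KSet_one (J : Finset (Fin n)) : (1 : Ga n M p m) ∈ KSet n M p m J := fun i j => by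
  simpa using nfJ_zero J

lemma KSet_mul {J : Finset (Fin n)} (hJ : J.Nonempty) {g h : Ga n M p m}
    (hg : g ∈ KSet n M p m J) (hh : h ∈ KSet n M p m J) : g * h ∈ KSet n M p m J := fun i j => by
  rw [coe_mul_sub_one, Matrix.add_apply, Matrix.add_apply, Matrix.mul_apply]
  exact nfJ_add (nfJ_add (hg i j) (hh i j)) (nfJ_sum _ _ fun k _ => nfJ_mul hJ (hg i k) (hh k j))

lemma mem_closure_iff [NeZero p] {T : Set (Ga n M p m)} (h1 : (1 : Ga n M p m) ∈ T)
    (hmul : ∀ g ∈ T, ∀ h ∈ T, g * h ∈ T) (g : Ga n M p m) :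
    g ∈ Subgroup.closure T ↔ g ∈ T := by
  refine ⟨fun hg => ?_, fun hg => Subgroup.subset_closure hg⟩
  have hinv : ∀ x ∈ T, x⁻¹ ∈ T := fun x hx => by
    have : ∀ k : ℕ, x ^ k ∈ T := fun k => by
      induction k with
      | zero => rwa [pow_zero]
      | succ k ih => rw [pow_succ]; exact hmul _ ih _ hx
    have hfo : IsOfFinOrder x := isOfFinOrder_of_finite x
    have heq : x⁻¹ = x ^ (orderOf x - 1) := by
      refine inv_eq_of_mul_eq_one_right ?_
      rw [← pow_succ', Nat.sub_add_cancel hfo.orderOf_pos, pow_orderOf_eq_one]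
    exact heq ▸ this _
  induction hg using Subgroup.closure_induction with
  | mem x hx => exact hx
  | one => exact h1
  | mul x y _ _ hx hy => exact hmul x hx y hy
  | inv x _ hx => exact hinv x hx

/-- The group of the colours of `S` is its defining set. -/
theorem mem_GS [NeZero p] (S : Finset (Fin M)) (g : Ga n M p m) :
    g ∈ GS n M p m S ↔ g ∈ GSet n M p m S :=
  mem_closure_iff (GSet_one S) (fun _ hg _ hh => GSet_mul hg hh) g

/-- A vertex subgroup is its defining set. -/
theorem mem_Kv [NeZero p] (v : Fin n) (g : Ga n M p m) :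
    g ∈ Kv n M p m v ↔ g ∈ KSet n M p m {v} :=
  mem_closure_iff (KSet_one _) (fun _ hg _ hh => KSet_mul ⟨v, mem_singleton_self v⟩ hg hh) g

/-- The position in the cyclic order starting after `v`. -/
def pos (v a : Fin n) : ℕ := if v < a then a.1 - (v.1 + 1) else a.1 + n - (v.1 + 1)

lemma pos_lt_pos {v a b : Fin n} (hab : a ≠ b) (h : ¬ crosses v a b) : pos v a < pos v b := by
  rw [ne_eq, Fin.ext_iff] at *
  simp only [crosses_iff] at *
  have := a.2
  have := b.2
  unfold pos
  simp only [Fin.lt_def]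
  split_ifs <;> omega

lemma det_of_mem_KSet {v : Fin n} {J : Finset (Fin n)} (hv : v ∈ J) {g : Ga n M p m}
    (hg : g ∈ KSet n M p m J) :
    (Matrix.comp (Fin M) (Fin M) (Fin n) (Fin n) (Rm p m) (g : BM n M p m)).det = 1 := by
  classical
  set G := Matrix.comp (Fin M) (Fin M) (Fin n) (Fin n) (Rm p m) (g : BM n M p m) with hG
  have hent : ∀ x y : Fin M × Fin n, ¬ pos v x.2 < pos v y.2 →
      G x y = (1 : Matrix (Fin M × Fin n) (Fin M × Fin n) (Rm p m)) x y := fun x y h => by
    obtain ⟨i, a⟩ := x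
    obtain ⟨j, b⟩ := y
    obtain ⟨c, hc, hx⟩ := hg i j
    have h0 : ((g : BM n M p m) - 1) i j a b = 0 := by
      rw [hx]
      split_ifs with hab
      · rfl
      · by_cases hcr : crosses v a b
        · rw [hc v hv a b hcr, sc_zero, zero_mul]
        · exact absurd (pos_lt_pos hab hcr) h
    have h1 : (g : BM n M p m) i j a b = (1 : BM n M p m) i j a b := by
      rw [← sub_eq_zero, ← Matrix.sub_apply, ← Matrix.sub_apply]
      exact h0
    rw [hG, Matrix.comp_apply, h1, ← map_one (compH n M p m)]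
    rfl
  have htri : G.BlockTriangular fun x => pos v x.2 := fun x y hxy => by
    rw [hent x y (not_lt.2 (le_of_lt hxy)), one_apply_ne]
    rintro rfl
    exact lt_irrefl _ hxy
  rw [htri.det]
  refine Finset.prod_eq_one fun k _ => ?_
  rw [show G.toSquareBlock (fun x => pos v x.2) k = 1 from ?_, det_one]
  ext x y
  show G x.1 y.1 = (1 : Matrix {x : Fin M × Fin n // pos v x.2 = k} _ (Rm p m)) x y
  rw [hent x.1 y.1 (by rw [x.2, y.2]; exact lt_irrefl k), one_apply, one_apply]
  simp [Subtype.ext_iff]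

lemma KSet_subset_GSet {J : Finset (Fin n)} (hJ : J.Nonempty) :
    KSet n M p m J ⊆ GSet n M p m univ := by
  obtain ⟨v, hv⟩ := hJ
  exact fun g hg => ⟨fun i j => nfJ_subset_nf J (hg i j), fun i j h => absurd h (by simp),
    det_of_mem_KSet hv hg⟩

theorem Kv_le_GS (v : Fin n) : Kv n M p m v ≤ GS n M p m univ :=
  Subgroup.closure_mono (KSet_subset_GSet ⟨v, mem_singleton_self v⟩)

end Vale.Agent.P067.Full.Grp
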