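import Vale.Agent.P067.Full.Group.Tv

/-!
Elimination in special linear groups: membership in subgroups containing enough elementary
matrices.
-/

open Matrix Finset

noncomputable section

namespace Vale.Agent.P067.Full.Grp

variable {ι : Type*} [Fintype ι] [DecidableEq ι] {R : Type*} [CommRing R]

/-- The rows and columns in `D` are those of the identity. -/
def Done (D : Finset ι) (M : Matrix.SpecialLinearGroup ι R) : Prop :=
  ∀ a b : ι, (a ∈ D ∨ b ∈ D) → M.1 a b = (1 : Matrix ι ι R) a b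

/-- The diagonal matrix with `u` at `a` and its inverse at `b`, as a product of elementary ones. -/
def dg (a b : ι) (u : Rˣ) : Matrix.SpecialLinearGroup ι R :=
  tv b a ((u⁻¹ : Rˣ) - 1 : R) * tv a b 1 * tv b a ((u : R) - 1) * tv a b (-((u⁻¹ : Rˣ) : R))

lemma dg_mul_apply {a b : ι} (h : a ≠ b) (u : Rˣ) (M : Matrix.SpecialLinearGroup ι R)
    (i j : ι) : (dg a b u * M).1 i j =
      (if i = a then (u : R) else if i = b then ((u⁻¹ : Rˣ) : R) else 1) * M.1 i j := by
  simp only [dg, mul_assoc, tv_mul_apply h, tv_mul_apply h.symm]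
  by_cases hia : i = a
  · subst hia
    simp only [if_true, if_neg h, if_neg h.symm]
    linear_combination (-(M.1 b j)) * u.mul_inv
  · by_cases hib : i = b
    · subst hib
      simp only [if_true, if_neg h, if_neg h.symm]
      linear_combination (M.1 a j - ((u⁻¹ : Rˣ) : R) * M.1 i j) * u.mul_inv
    · simp [hia, hib]

lemma dg_apply {a b : ι} (h : a ≠ b) (u : Rˣ) (i j : ι) : (dg a b u).1 i j =
    (if i = a then (u : R) else if i = b then ((u⁻¹ : Rˣ) : R) else 1) *
      (1 : Matrix ι ι R) i j := by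
  conv_lhs => rw [← mul_one (dg a b u)]
  exact dg_mul_apply h u 1 i j

lemma dg_swap {a b : ι} (h : a ≠ b) (u : Rˣ) : dg b a u⁻¹ = dg a b u := by
  refine Subtype.ext (Matrix.ext fun i j => ?_)
  show (dg b a u⁻¹).1 i j = (dg a b u).1 i j
  rw [dg_apply h, dg_apply h.symm]
  congr 1
  by_cases hia : i = a
  · subst hia; simp [h]
  · by_cases hib : i = b
    · subst hib; simp [h.symm]
    · simp [hia, hib]

lemma dg_trans {a r b : ι} (har : a ≠ r) (hrb : r ≠ b) (hab : a ≠ b) (u : Rˣ) :
    dg a r u * dg r b u = dg a b u := by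
  refine Subtype.ext (Matrix.ext fun i j => ?_)
  show (dg a r u * dg r b u).1 i j = (dg a b u).1 i j
  rw [dg_mul_apply har, dg_apply hrb, dg_apply hab, ← mul_assoc]
  congr 1
  by_cases hia : i = a
  · subst hia; simp [har, hab]
  · by_cases hir : i = r
    · subst hir; simp [hia, hrb]
    · by_cases hib : i = b
      · subst hib; simp [hia, hir]
      · simp [hia, hir, hib]

lemma exists_clear_col (H : Subgroup (Matrix.SpecialLinearGroup ι R)) (k : ι)
    (M : Matrix.SpecialLinearGroup ι R) (x : ι → R) :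
    ∀ s : Finset ι, k ∉ s → (∀ a ∈ s, tv a k (x a) ∈ H) →
      ∃ A ∈ H, ∀ i j, (A * M).1 i j = M.1 i j + if i ∈ s then x i * M.1 k j else 0 := by
  intro s
  induction s using Finset.induction_on with
  | empty => exact fun _ _ => ⟨1, one_mem _, by simp⟩
  | insert a s has ih =>
    intro hks hx
    rw [Finset.mem_insert, not_or] at hks
    obtain ⟨A, hA, hAM⟩ := ih hks.2 fun b hb => hx b (Finset.mem_insert_of_mem hb)
    refine ⟨tv a k (x a) * A, H.mul_mem (hx a (Finset.mem_insert_self _ _)) hA, fun i j => ?_⟩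
    rw [mul_assoc, tv_mul_apply (Ne.symm hks.1), hAM, hAM, if_neg hks.2]
    by_cases hia : i = a
    · subst hia; simp [has]
    · simp [hia]

lemma exists_clear_row (H : Subgroup (Matrix.SpecialLinearGroup ι R)) (k : ι)
    (M : Matrix.SpecialLinearGroup ι R) (y : ι → R) :
    ∀ s : Finset ι, k ∉ s → (∀ b ∈ s, tv k b (y b) ∈ H) →
      ∃ B ∈ H, ∀ i j, (M * B).1 i j = M.1 i j + if j ∈ s then y j * M.1 i k else 0 := by
  intro s
  induction s using Finset.induction_on with
  | empty => exact fun _ _ => ⟨1, one_mem _, by simp⟩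
  | insert b s hbs ih =>
    intro hks hy
    rw [Finset.mem_insert, not_or] at hks
    obtain ⟨B, hB, hMB⟩ := ih hks.2 fun a ha => hy a (Finset.mem_insert_of_mem ha)
    refine ⟨B * tv k b (y b), H.mul_mem hB (hy b (Finset.mem_insert_self _ _)), fun i j => ?_⟩
    rw [← mul_assoc, mul_tv_apply hks.1, hMB, hMB, if_neg hks.2]
    by_cases hjb : j = b
    · subst hjb; simp [hbs]
    · simp [hjb]

/-- One step of the elimination. -/
lemma exists_step (H : Subgroup (Matrix.SpecialLinearGroup ι R)) (D : Finset ι) (k : ι)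
    (hk : k ∉ D) (M : Matrix.SpecialLinearGroup ι R) (u : Rˣ) (hM : Done D M) (hu : M.1 k k = u)
    (hcol : ∀ a, a ∉ D → a ≠ k → tv a k (-(M.1 a k * ((u⁻¹ : Rˣ) : R))) ∈ H)
    (hrow : ∀ b, b ∉ D → b ≠ k → tv k b (-(((u⁻¹ : Rˣ) : R) * M.1 k b)) ∈ H)
    (hdg : ∀ l, l ∉ D → l ≠ k → dg k l u⁻¹ ∈ H) :
    ∃ A ∈ H, ∃ B ∈ H, Done (insert k D) (A * M * B) := by
  set s := univ.filter (fun a => a ∉ D ∧ a ≠ k) with hs
  have hmem : ∀ a, a ∈ s ↔ a ∉ D ∧ a ≠ k := fun a => by simp [hs]
  have hks : k ∉ s := fun h => ((hmem k).1 h).2 rfl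
  obtain ⟨A, hA, hAM⟩ := exists_clear_col H k M _ s hks
    (fun a ha => hcol a ((hmem a).1 ha).1 ((hmem a).1 ha).2)
  obtain ⟨B, hB, hMB⟩ := exists_clear_row H k (A * M) _ s hks
    (fun a ha => hrow a ((hmem a).1 ha).1 ((hmem a).1 ha).2)
  have hAk : ∀ j, (A * M).1 k j = M.1 k j := fun j => by simp [hAM, hks]
  have hA0 : ∀ i j : ι, (i ∈ D ∨ j ∈ D) → (A * M).1 i j = (1 : Matrix ι ι R) i j :=
    fun i j hij => by
    rw [hAM, hM i j hij]
    split_ifs with h
    · have hj : j ∈ D := hij.resolve_left ((hmem i).1 h).1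
      rw [hM k j (Or.inr hj), one_apply_ne (show k ≠ j from fun h' => hk (h' ▸ hj)), mul_zero,
        add_zero]
    · rw [add_zero]
  have hc : ∀ i, i ≠ k → (A * M).1 i k = 0 := fun i hi => by
    by_cases hiD : i ∈ D
    · rw [hA0 i k (Or.inl hiD), one_apply_ne hi]
    · rw [hAM, hu, if_pos ((hmem i).2 ⟨hiD, hi⟩), neg_mul, mul_assoc, u.inv_mul, mul_one,
        add_neg_cancel]
  have hN0 : ∀ i j : ι, (i ∈ D ∨ j ∈ D) → (A * M * B).1 i j = (1 : Matrix ι ι R) i j :=
    fun i j hij => by
    rw [hMB, hA0 i j hij]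
    split_ifs with h
    · have hi : i ∈ D := hij.resolve_right ((hmem j).1 h).1
      rw [hA0 i k (Or.inl hi), one_apply_ne (show i ≠ k from fun h' => hk (h' ▸ hi)), mul_zero,
        add_zero]
    · rw [add_zero]
  have hN1 : ∀ i, (A * M * B).1 i k = if i = k then (u : R) else 0 := fun i => by
    rw [hMB, if_neg hks, add_zero]
    split_ifs with h
    · rw [h, hAk, hu]
    · exact hc i h
  have hN2 : ∀ j, j ≠ k → (A * M * B).1 k j = 0 := fun j hj => by
    by_cases hjD : j ∈ D
    · rw [hN0 k j (Or.inr hjD), one_apply_ne hj.symm]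
    · rw [hMB, hAk, hAk, hu, if_pos ((hmem j).2 ⟨hjD, hj⟩), neg_mul, mul_right_comm, u.inv_mul,
        one_mul, add_neg_cancel]
  by_cases hl : ∃ l, l ∉ D ∧ l ≠ k
  · obtain ⟨l, hlD, hlk⟩ := hl
    refine ⟨dg k l u⁻¹ * A, H.mul_mem (hdg l hlD hlk) hA, B, hB, fun i j hij => ?_⟩
    rw [mul_assoc, mul_assoc, ← mul_assoc A M, dg_mul_apply hlk.symm, inv_inv]
    by_cases hik : i = k
    · subst hik
      rw [if_pos rfl]
      by_cases hjk : j = i
      · subst hjk; rw [hN1, if_pos rfl, u.inv_mul, one_apply_eq]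
      · rw [hN2 j hjk, mul_zero, one_apply_ne (Ne.symm hjk)]
    · rw [if_neg hik]
      by_cases hjk : j = k
      · subst hjk; rw [hN1, if_neg hik, mul_zero, one_apply_ne hik]
      · simp only [Finset.mem_insert, hik, hjk, false_or] at hij
        rw [hN0 i j hij]
        split_ifs with hil
        · subst hil
          rw [one_apply_ne (show i ≠ j from fun h' => hlD (h' ▸ hij.resolve_left hlD)), mul_zero]
        · rw [one_mul]
  · have hcov : ∀ i, i ≠ k → i ∈ D := fun i hi => by
      by_contra h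
      exact hl ⟨i, h, hi⟩
    have hdiag : ∀ i j, (A * M * B).1 i j =
        Matrix.diagonal (Function.update (1 : ι → R) k (u : R)) i j := fun i j => by
      by_cases hik : i = k
      · subst hik
        by_cases hjk : j = i
        · subst hjk; simp [hN1]
        · rw [hN2 j hjk, diagonal_apply_ne _ (Ne.symm hjk)]
      · by_cases hjk : j = k
        · subst hjk; rw [hN1, if_neg hik, diagonal_apply_ne _ hik]
        · rw [hN0 i j (Or.inl (hcov i hik))]
          by_cases hij : i = j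
          · subst hij; simp [hik]
          · simp [hij]
    have hu1 : (u : R) = 1 := by
      have h1 : (A * M * B).1.det = 1 := (A * M * B).2
      rw [show (A * M * B).1 = Matrix.diagonal (Function.update (1 : ι → R) k (u : R)) from
        Matrix.ext hdiag, det_diagonal, Finset.prod_update_of_mem (Finset.mem_univ k)] at h1
      simpa using h1
    refine ⟨A, hA, B, hB, fun i j _ => ?_⟩
    rw [hdiag, hu1, show Function.update (1 : ι → R) k (1 : R) = 1 from
      Function.update_eq_self k (1 : ι → R), show (1 : ι → R) = fun _ => 1 from rfl,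
      diagonal_one]

/-- A matrix lies in a subgroup if the elimination can be carried out inside it. -/
theorem mem_of_pivots (H : Subgroup (Matrix.SpecialLinearGroup ι R))
    (T : Matrix.SpecialLinearGroup ι R → Prop)
    (hT : ∀ A ∈ H, ∀ M, T M → T (A * M) ∧ T (M * A)) (D₀ : Finset ι)
    (hpiv : ∀ (D : Finset ι) (k : ι), D₀ ⊆ D → k ∉ D → ∀ M, T M → Done D M →
      ∃ u : Rˣ, M.1 k k = u ∧
        (∀ a, a ∉ D → a ≠ k → tv a k (-(M.1 a k * ((u⁻¹ : Rˣ) : R))) ∈ H) ∧
        (∀ b, b ∉ D → b ≠ k → tv k b (-(((u⁻¹ : Rˣ) : R) * M.1 k b)) ∈ H) ∧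
        ∀ l, l ∉ D → l ≠ k → dg k l u⁻¹ ∈ H)
    (M : Matrix.SpecialLinearGroup ι R) (hM : T M) (hD₀ : Done D₀ M) : M ∈ H := by
  suffices h : ∀ (r : ℕ) (D : Finset ι), D₀ ⊆ D → Dᶜ.card ≤ r → ∀ M, T M → Done D M → M ∈ H from
    h _ D₀ (Finset.Subset.refl _) le_rfl M hM hD₀
  intro r
  induction r with
  | zero =>
    intro D _ hr M _ hD
    have hu : ∀ i, i ∈ D := fun i => by
      by_contra h
      exact Finset.notMem_empty i
        (Finset.card_eq_zero.1 (Nat.le_zero.1 hr) ▸ Finset.mem_compl.2 h)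
    convert one_mem H
    exact Subtype.ext (Matrix.ext fun a b => hD a b (Or.inl (hu a)))
  | succ r ih =>
    intro D hDD hr M hTM hD
    rcases Dᶜ.eq_empty_or_nonempty with he | ⟨k, hk⟩
    · exact ih D hDD (by simp [he]) M hTM hD
    rw [Finset.mem_compl] at hk
    obtain ⟨u, hu, hcol, hrow, hdg⟩ := hpiv D k hDD hk M hTM hD
    obtain ⟨A, hA, B, hB, hD'⟩ := exists_step H D k hk M u hD hu hcol hrow hdg
    have hlt : (insert k D)ᶜ.card < Dᶜ.card := Finset.card_lt_card (by
      rw [Finset.compl_insert]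
      exact Finset.erase_ssubset (Finset.mem_compl.2 hk))
    have h := ih (insert k D) (hDD.trans (Finset.subset_insert k D)) (by omega) _
      ((hT B hB _ (hT A hA _ hTM).1).2) hD'
    rw [H.mul_mem_cancel_right hB, H.mul_mem_cancel_left hA] at h
    exact h

end Vale.Agent.P067.Full.Grp
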