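import Vale.Agent.P067.Full.Group.Basic
import Vale.Agent.P067.Full.Group.Elim

/-!
The simple root elements generate the groups.
-/

open Matrix Finset Polynomial

noncomputable section

namespace Vale.Agent.P067.Full.Grp

variable {n M p m : ℕ}

/-- The special linear group on pairs of a colour and a type. -/
abbrev SLc (n M p m : ℕ) : Type := Matrix.SpecialLinearGroup (Fin M × Fin n) (Rm p m)

/-- The inclusion as matrices over colours. -/
def toBM (n M p m : ℕ) : SLc n M p m →* BM n M p m where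
  toFun g := (Matrix.compRingEquiv (Fin M) (Fin n) (Rm p m)).symm g.1
  map_one' := by
    show (Matrix.compRingEquiv (Fin M) (Fin n) (Rm p m)).symm 1 = 1
    exact map_one _
  map_mul' g h := by
    show (Matrix.compRingEquiv (Fin M) (Fin n) (Rm p m)).symm (g.1 * h.1) = _
    exact map_mul _ _ _

/-- The inclusion into the ambient group. -/
def psi (n M p m : ℕ) : SLc n M p m →* Ga n M p m := (toBM n M p m).toHomUnits

lemma psi_apply (g : SLc n M p m) (i j : Fin M) (a b : Fin n) :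
    (psi n M p m g : BM n M p m) i j a b = g.1 (i, a) (j, b) := rfl

lemma one_BM_apply (i j : Fin M) (a b : Fin n) : (1 : BM n M p m) i j a b =
    (1 : Matrix (Fin M × Fin n) (Fin M × Fin n) (Rm p m)) (i, a) (j, b) := by
  rw [← map_one (compH n M p m)]
  rfl

lemma comp_psi (g : SLc n M p m) :
    Matrix.comp (Fin M) (Fin M) (Fin n) (Fin n) (Rm p m) (psi n M p m g : BM n M p m) = g.1 := rfl

/-- The shape of the elements of the group of the colours of `S`. -/
def Sh (S : Finset (Fin M)) (g : SLc n M p m) : Prop :=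
  (∀ P Q : Fin M × Fin n, Q.2 ≤ P.2 →
    g.1 P Q - (1 : Matrix (Fin M × Fin n) (Fin M × Fin n) (Rm p m)) P Q ∈
      Ideal.span {tt p m}) ∧
  ∀ P Q : Fin M × Fin n, (P.1 ∉ S ∨ Q.1 ∉ S) →
    g.1 P Q = (1 : Matrix (Fin M × Fin n) (Fin M × Fin n) (Rm p m)) P Q

lemma psi_mem_GSet {S : Finset (Fin M)} {g : SLc n M p m} :
    psi n M p m g ∈ GSet n M p m S ↔ Sh S g := by
  constructor
  · rintro ⟨h1, h2, -⟩
    refine ⟨fun ⟨i, a⟩ ⟨j, b⟩ hQP => ?_, fun ⟨i, a⟩ ⟨j, b⟩ hPQ => ?_⟩
    · have := h1 i j a b hQP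
      rwa [Matrix.sub_apply, Matrix.sub_apply, psi_apply, one_BM_apply] at this
    · have := congrFun (congrFun (h2 i j hPQ) a) b
      rw [Matrix.sub_apply, Matrix.sub_apply, psi_apply, one_BM_apply] at this
      exact sub_eq_zero.1 this
  · rintro ⟨h1, h2⟩
    refine ⟨fun i j a b hba => ?_, fun i j hij => Matrix.ext fun a b => ?_, ?_⟩
    · rw [Matrix.sub_apply, Matrix.sub_apply, psi_apply, one_BM_apply]
      exact h1 (i, a) (j, b) hba
    · rw [Matrix.sub_apply, Matrix.sub_apply, psi_apply, one_BM_apply, h2 (i, a) (j, b) hij]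
      exact sub_self _
    · rw [comp_psi]; exact g.2

lemma coe_psi_tv {i j : Fin M} {a b : Fin n} (h : (i, a) ≠ (j, b)) (x : Rm p m) :
    (psi n M p m (tv (i, a) (j, b) x) : BM n M p m) =
      1 + Matrix.single i j (Matrix.single a b x) := by
  refine Matrix.ext fun k l => Matrix.ext fun c d => ?_
  rw [psi_apply, tv_coe h, Matrix.add_apply, Matrix.add_apply, one_BM_apply]
  show (1 + Matrix.single (i, a) (j, b) x) (k, c) (l, d) = _
  rw [Matrix.add_apply]
  congr 1
  simp only [Matrix.single, Matrix.of_apply, Prod.mk.injEq]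
  by_cases hij : i = k ∧ j = l
  · obtain ⟨rfl, rfl⟩ := hij
    by_cases hab : a = c ∧ b = d <;> simp [hab]
  · rw [if_neg hij]
    simp only [Matrix.zero_apply]
    rw [if_neg]
    rintro ⟨⟨h1, -⟩, h2, -⟩
    exact hij ⟨h1, h2⟩

lemma sh_tv {S : Finset (Fin M)} {P Q : Fin M × Fin n} (h : P ≠ Q) (hP : P.1 ∈ S) (hQ : Q.1 ∈ S)
    {x : Rm p m} (hx : Q.2 ≤ P.2 → x ∈ Ideal.span {tt p m}) : Sh S (tv P Q x) := by
  have he : ∀ P' Q' : Fin M × Fin n, (tv P Q x).1 P' Q' =
      (1 : Matrix (Fin M × Fin n) (Fin M × Fin n) (Rm p m)) P' Q' +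
        if P' = P ∧ Q' = Q then x else 0 := fun P' Q' => by
    rw [tv_coe h, Matrix.transvection, Matrix.add_apply]
    simp only [Matrix.single, Matrix.of_apply, eq_comm (a := P), eq_comm (a := Q)]
  refine ⟨fun P' Q' hle => ?_, fun P' Q' hout => ?_⟩
  · rw [he, add_sub_cancel_left]
    split_ifs with h'
    · obtain ⟨rfl, rfl⟩ := h'
      exact hx hle
    · exact Ideal.zero_mem _
  · rw [he, if_neg, add_zero]
    rintro ⟨rfl, rfl⟩
    exact hout.elim (fun h => h hP) (fun h => h hQ)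

variable (n M p m) in
/-- The preimage of the group generated by the roots. -/
def HR (S : Finset (Fin M)) : Subgroup (SLc n M p m) :=
  (Subgroup.closure (roots n M p m S)).comap (psi n M p m)

lemma root_mem (hn : 2 ≤ n) {S : Finset (Fin M)} {i j : Fin M} (hi : i ∈ S) (hj : j ∈ S)
    (a : Fin n) (c : ZMod p) :
    tv (i, a) (j, nxt a) (sc p m c * te p m a (nxt a)) ∈ HR n M p m S := by
  have h : ((i, a) : Fin M × Fin n) ≠ (j, nxt a) := fun h => nxt_ne hn a (congrArg Prod.snd h)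
  refine Subgroup.subset_closure ⟨psi_mem_GSet.2 (sh_tv h hi hj fun hle => ?_),
    a, c, i, hi, j, hj, coe_psi_tv h _⟩
  unfold te
  rw [if_pos (lt_of_le_of_ne hle (nxt_ne hn a).symm)]
  exact Ideal.mul_mem_left _ _ (Ideal.mem_span_singleton_self _)

lemma comm_mem {H : Subgroup (SLc n M p m)} {i k j : Fin M} {a d b : Fin n} (h1 : a ≠ d)
    (h2 : d ≠ b) (h3 : (i, a) ≠ (j, b)) {x y : Rm p m} (hx : tv (i, a) (k, d) x ∈ H)
    (hy : tv (k, d) (j, b) y ∈ H) : tv (i, a) (j, b) (x * y) ∈ H :=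
  tv_mem_comm (fun h => h1 (congrArg Prod.snd h)) (fun h => h2 (congrArg Prod.snd h)) h3 hx hy

lemma tv_mem_pow (hn : 3 ≤ n) (S : Finset (Fin M)) : ∀ (k : ℕ),
    (∀ i ∈ S, ∀ j ∈ S, ∀ a b : Fin n, a < b → ∀ c,
      tv (i, a) (j, b) (sc p m c * tt p m ^ k) ∈ HR n M p m S) ∧
    ∀ i ∈ S, ∀ j ∈ S, ∀ a b : Fin n, b ≤ a → (i, a) ≠ (j, b) → ∀ c,
      tv (i, a) (j, b) (sc p m c * tt p m ^ (k + 1)) ∈ HR n M p m S := by
  have h0 : 0 < n := by omega
  have hu : ∀ (d : ℕ) (i : Fin M), i ∈ S → ∀ j ∈ S, ∀ a b : Fin n, a < b → b.1 - a.1 ≤ d → ∀ c,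
      tv (i, a) (j, b) (sc p m c) ∈ HR n M p m S := by
    intro d
    induction d with
    | zero => intro i _ j _ a b h hd; rw [Fin.lt_def] at h; omega
    | succ d ih =>
      intro i hi j hj a b h hd c
      have hab := Fin.lt_def.1 h
      have hb := b.2
      have hnx : (nxt a).1 = a.1 + 1 := by rw [nxt_val, if_neg (by omega)]
      have hte : te p m a (nxt a) = 1 := if_neg (by rw [Fin.lt_def]; omega)
      have hgen : ∀ j' ∈ S, ∀ y, tv (i, a) (j', nxt a) (sc p m y) ∈ HR n M p m S :=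
        fun j' hj' y => by simpa [hte] using root_mem (m := m) (by omega) hi hj' a y
      by_cases hb' : nxt a = b
      · subst hb'; exact hgen j hj c
      · have hlt : nxt a < b := by
          rw [Fin.ext_iff] at hb'
          rw [Fin.lt_def]; omega
        have h3 := comm_mem (nxt_ne (by omega) a) hlt.ne (fun h' => h.ne (congrArg Prod.snd h'))
          (hgen i hi 1) (ih i hi j hj (nxt a) b hlt (by omega) c)
        rwa [sc_one, one_mul] at h3
  obtain ⟨z, hz⟩ : ∃ z : Fin n, z.1 = 0 := ⟨⟨0, h0⟩, rfl⟩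
  obtain ⟨e, he⟩ : ∃ e : Fin n, e.1 + 1 = n := ⟨⟨n - 1, by omega⟩, by show n - 1 + 1 = n; omega⟩
  have hlast : ∀ i ∈ S, ∀ j ∈ S, ∀ b : Fin n, b < e → ∀ y,
      tv (i, e) (j, b) (sc p m y * tt p m) ∈ HR n M p m S := fun i hi j hj b hb y => by
    have hnx : nxt e = z := Fin.ext (by rw [nxt_val, if_pos he, hz])
    have hcorner : ∀ j' ∈ S, tv (i, e) (j', z) (sc p m y * tt p m) ∈ HR n M p m S := fun j' hj' => by
      have h := root_mem (m := m) (by omega) hi hj' e y
      rwa [hnx, te, if_pos (Fin.lt_def.2 (by omega))] at h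
    by_cases hb0 : b = z
    · rw [hb0]; exact hcorner j hj
    · have hzb : z < b := Fin.lt_def.2 (by rw [Fin.ext_iff] at hb0; omega)
      have h3 := comm_mem (Fin.ne_of_gt (hzb.trans hb)) hzb.ne
        (fun h' => hb.ne' (congrArg Prod.snd h')) (hcorner i hi)
        (hu n i hi j hj z b hzb (by omega) 1)
      rwa [sc_one, mul_one] at h3
  have hl : ∀ i ∈ S, ∀ j ∈ S, ∀ a b : Fin n, b ≤ a → (i, a) ≠ (j, b) → ∀ c,
      tv (i, a) (j, b) (sc p m c * tt p m) ∈ HR n M p m S := by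
    intro i hi j hj a b h hne c
    by_cases hae : a = e
    · subst hae
      rcases lt_or_eq_of_le h with hlt | heq
      · exact hlast i hi j hj b hlt c
      · subst heq
        have hzb : z < b := Fin.lt_def.2 (by omega)
        have h3 := comm_mem hzb.ne' hzb.ne hne (hlast i hi i hi z hzb c)
          (hu n i hi j hj z b hzb (by omega) 1)
        rwa [sc_one, mul_one] at h3
    · have hae' : a < e := Fin.lt_def.2 (by rw [Fin.ext_iff] at hae; have := a.2; omega)
      have h3 := comm_mem hae'.ne (h.trans_lt hae').ne' hne (hu n i hi i hi a e hae' (by omega) 1)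
        (hlast i hi j hj b (h.trans_lt hae') c)
      rwa [sc_one, one_mul] at h3
  intro k
  induction k with
  | zero =>
    exact ⟨fun i hi j hj a b h c => by simpa using hu n i hi j hj a b h (by omega) c,
      fun i hi j hj a b h hne c => by simpa using hl i hi j hj a b h hne c⟩
  | succ k ih =>
    obtain ⟨ihu, ihl⟩ := ih
    have hnePQ : ∀ {i j : Fin M} {a b : Fin n}, a ≠ b → (i, a) ≠ (j, b) :=
      fun h h' => h (congrArg Prod.snd h')
    have hne : ∀ i ∈ S, ∀ j ∈ S, ∀ a b : Fin n, a < b → (0 < a.1 ∨ b.1 + 1 < n) → ∀ c,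
        tv (i, a) (j, b) (sc p m c * tt p m ^ (k + 1)) ∈ HR n M p m S := by
      intro i hi j hj a b h hext c
      rcases hext with ha | hb
      · have hza : z < a := Fin.lt_def.2 (by omega)
        have h3 := comm_mem hza.ne' (hza.trans h).ne (hnePQ h.ne)
          (hl i hi i hi a z hza.le (hnePQ hza.ne') 1) (ihu i hi j hj z b (hza.trans h) c)
        rwa [show sc p m 1 * tt p m * (sc p m c * tt p m ^ k) = sc p m c * tt p m ^ (k + 1) by
          rw [pow_succ, sc_one]; ring] at h3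
      · have hbe : b < e := Fin.lt_def.2 (by omega)
        have h3 := comm_mem (h.trans hbe).ne hbe.ne' (hnePQ h.ne)
          (ihu i hi i hi a e (h.trans hbe) c) (hl i hi j hj e b hbe.le (hnePQ hbe.ne') 1)
        rwa [show sc p m c * tt p m ^ k * (sc p m 1 * tt p m) = sc p m c * tt p m ^ (k + 1) by
          rw [pow_succ, sc_one]; ring] at h3
    have hup : ∀ i ∈ S, ∀ j ∈ S, ∀ a b : Fin n, a < b → ∀ c,
        tv (i, a) (j, b) (sc p m c * tt p m ^ (k + 1)) ∈ HR n M p m S := by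
      intro i hi j hj a b h c
      have hab := Fin.lt_def.1 h
      by_cases hext : 0 < a.1 ∨ b.1 + 1 < n
      · exact hne i hi j hj a b h hext c
      · obtain ⟨d, hd⟩ : ∃ d : Fin n, d.1 = 1 := ⟨⟨1, by omega⟩, rfl⟩
        have h1 : a < d := Fin.lt_def.2 (by omega)
        have h2 : d < b := Fin.lt_def.2 (by have := b.2; omega)
        have h3 := comm_mem h1.ne h2.ne (hnePQ h.ne)
          (hne i hi i hi a d h1 (Or.inr (by omega)) c) (hu n i hi j hj d b h2 (by omega) 1)
        rwa [sc_one, mul_one] at h3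
    refine ⟨hup, fun i hi j hj a b h hne' c => ?_⟩
    obtain ⟨d, hda, hdb⟩ : ∃ d : Fin n, d.1 ≠ a.1 ∧ d.1 ≠ b.1 := by
      by_cases h1 : a.1 = 0 ∨ b.1 = 0
      · by_cases h2 : a.1 = 1 ∨ b.1 = 1
        · exact ⟨⟨2, by omega⟩, by show 2 ≠ a.1; omega, by show 2 ≠ b.1; omega⟩
        · exact ⟨⟨1, by omega⟩, by show 1 ≠ a.1; omega, by show 1 ≠ b.1; omega⟩
      · exact ⟨⟨0, h0⟩, by show 0 ≠ a.1; omega, by show 0 ≠ b.1; omega⟩
    have hda' : a ≠ d := Fin.ne_of_val_ne hda.symm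
    have hdb' : d ≠ b := Fin.ne_of_val_ne hdb
    rcases lt_or_gt_of_ne hda' with h1 | h1
    · have h3 := comm_mem hda' hdb' hne' (hup i hi i hi a d h1 c)
        (hl i hi j hj d b (h.trans h1.le) (hnePQ hdb') 1)
      rwa [show sc p m c * tt p m ^ (k + 1) * (sc p m 1 * tt p m) =
          sc p m c * tt p m ^ (k + 1 + 1) by
        rw [pow_succ _ (k + 1), sc_one]; ring] at h3
    · rcases lt_or_gt_of_ne hdb' with h2 | h2
      · have h3 := comm_mem hda' hdb' hne' (hl i hi i hi a d h1.le (hnePQ hda') 1)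
          (hup i hi j hj d b h2 c)
        rwa [show sc p m 1 * tt p m * (sc p m c * tt p m ^ (k + 1)) =
            sc p m c * tt p m ^ (k + 1 + 1) by
          rw [pow_succ _ (k + 1), sc_one]; ring] at h3
      · have h3 := comm_mem hda' hdb' hne' (ihl i hi i hi a d h1.le (hnePQ hda') c)
          (hl i hi j hj d b h2.le (hnePQ hdb') 1)
        rwa [show sc p m c * tt p m ^ (k + 1) * (sc p m 1 * tt p m) =
            sc p m c * tt p m ^ (k + 1 + 1) by
          rw [pow_succ _ (k + 1), sc_one]; ring] at h3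

lemma mem_of_coeffs (H : Subgroup (SLc n M p m)) {P Q : Fin M × Fin n} (r : ℕ)
    (h : ∀ k c, tv P Q (sc p m c * tt p m ^ (k + r)) ∈ H) (y : Rm p m) :
    tv P Q (tt p m ^ r * y) ∈ H := by
  obtain ⟨q, rfl⟩ := Ideal.Quotient.mk_surjective y
  induction q using Polynomial.induction_on' with
  | add q₁ q₂ h₁ h₂ => rw [map_add, mul_add, tv_add]; exact H.mul_mem h₁ h₂
  | monomial k c =>
    rw [← Polynomial.C_mul_X_pow_eq_monomial, map_mul, map_pow,
      show (Ideal.Quotient.mk (Ideal.span {(X : Polynomial (ZMod p)) ^ m})) X = tt p m from rfl,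
      mul_comm (tt p m ^ r), mul_assoc, ← pow_add]
    exact h k c

lemma tv_mem (hn : 3 ≤ n) {S : Finset (Fin M)} {P Q : Fin M × Fin n} (h : P ≠ Q) (hP : P.1 ∈ S)
    (hQ : Q.1 ∈ S) {x : Rm p m} (hx : Q.2 ≤ P.2 → x ∈ Ideal.span {tt p m}) :
    tv P Q x ∈ HR n M p m S := by
  obtain ⟨i, a⟩ := P
  obtain ⟨j, b⟩ := Q
  rcases lt_or_ge a b with hab | hab
  · simpa using mem_of_coeffs (HR n M p m S) 0
      (fun k c => by simpa using (tv_mem_pow hn S k).1 i hP j hQ a b hab c) x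
  · obtain ⟨y, rfl⟩ := Ideal.mem_span_singleton.1 (hx hab)
    have := mem_of_coeffs (HR n M p m S) 1
      (fun k c => (tv_mem_pow hn S k).2 i hP j hQ a b hab h c) y
    rwa [pow_one] at this

lemma dg_mem (hn : 3 ≤ n) {S : Finset (Fin M)} {P Q : Fin M × Fin n} (h : P ≠ Q) (hP : P.1 ∈ S)
    (hQ : Q.1 ∈ S) (u : (Rm p m)ˣ) (hu : (u : Rm p m) - 1 ∈ Ideal.span {tt p m}) :
    dg P Q u ∈ HR n M p m S := by
  have hu' : ∀ u : (Rm p m)ˣ, (u : Rm p m) - 1 ∈ Ideal.span {tt p m} →
      ((u⁻¹ : (Rm p m)ˣ) : Rm p m) - 1 ∈ Ideal.span {tt p m} := fun u hu => by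
    have e : ((u⁻¹ : (Rm p m)ˣ) : Rm p m) - 1 =
        (-((u⁻¹ : (Rm p m)ˣ) : Rm p m)) * ((u : Rm p m) - 1) := by
      linear_combination u.inv_mul
    rw [e]
    exact Ideal.mul_mem_left _ _ hu
  have hlt : ∀ {P Q : Fin M × Fin n} (u : (Rm p m)ˣ), P.1 ∈ S → Q.1 ∈ S → P.2 < Q.2 →
      (u : Rm p m) - 1 ∈ Ideal.span {tt p m} → dg P Q u ∈ HR n M p m S := by
    intro P Q u hP hQ hlt hu
    have hne : P ≠ Q := fun h => hlt.ne (congrArg Prod.snd h)
    refine mul_mem (mul_mem (mul_mem ?_ ?_) ?_) ?_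
    · exact tv_mem hn hne.symm hQ hP fun _ => hu' u hu
    · exact tv_mem hn hne hP hQ fun h => absurd h (not_le.2 hlt)
    · exact tv_mem hn hne.symm hQ hP fun _ => hu
    · exact tv_mem hn hne hP hQ fun h => absurd h (not_le.2 hlt)
  have hgen : ∀ {P Q : Fin M × Fin n} (u : (Rm p m)ˣ), P.1 ∈ S → Q.1 ∈ S → P.2 ≠ Q.2 →
      (u : Rm p m) - 1 ∈ Ideal.span {tt p m} → dg P Q u ∈ HR n M p m S := by
    intro P Q u hP hQ hne hu
    rcases lt_or_gt_of_ne hne with h | h
    · exact hlt u hP hQ h hu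
    · rw [← dg_swap (fun h' : P = Q => hne (congrArg Prod.snd h'))]
      exact hlt u⁻¹ hQ hP h (hu' u hu)
  by_cases ht : P.2 = Q.2
  · have hne : P.2 ≠ nxt P.2 := nxt_ne (by omega) P.2
    have hne2 : nxt P.2 ≠ Q.2 := fun h' => hne (ht.trans h'.symm)
    rw [← dg_trans (r := (P.1, nxt P.2)) (fun h' => hne (congrArg Prod.snd h'))
      (fun h' => hne2 (congrArg Prod.snd h')) h u]
    exact mul_mem (hgen u hP hP hne hu) (hgen u hP hQ hne2 hu)
  · exact hgen u hP hQ ht hu

lemma isUnit_one_add {x : Rm p m} (hx : x ∈ Ideal.span {tt p m}) : IsUnit (1 + x) := by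
  obtain ⟨y, rfl⟩ := Ideal.mem_span_singleton.1 hx
  refine IsNilpotent.isUnit_one_add ⟨m, ?_⟩
  rw [mul_pow, show tt p m ^ m = 0 from ?_, zero_mul]
  rw [tt, ← map_pow, Ideal.Quotient.eq_zero_iff_mem]
  exact Ideal.subset_span rfl

/-- The roots of the colours of `S` generate. -/
theorem closure_roots [NeZero p] (hn : 3 ≤ n) (S : Finset (Fin M)) :
    Subgroup.closure (roots n M p m S) = GS n M p m S := by
  classical
  have hle : Subgroup.closure (roots n M p m S) ≤ GS n M p m S :=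
    Subgroup.closure_mono fun g hg => hg.1
  refine le_antisymm hle fun g hg => ?_
  rw [mem_GS] at hg
  let G : SLc n M p m := ⟨_, hg.2.2⟩
  have hG : psi n M p m G = g := Units.ext (Matrix.ext fun i j => Matrix.ext fun a b => rfl)
  suffices G ∈ HR n M p m S by
    rw [← hG]; exact this
  have hSh : ∀ A ∈ HR n M p m S, psi n M p m A ∈ GSet n M p m S := fun A hA =>
    (mem_GS S _).1 (hle hA)
  refine mem_of_pivots (HR n M p m S) (Sh S) (fun A hA N hN => ?_)
    (univ.filter fun P => P.1 ∉ S) ?_ G (psi_mem_GSet.1 (hG.symm ▸ hg)) ?_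
  · rw [← psi_mem_GSet, ← psi_mem_GSet, map_mul, map_mul]
    exact ⟨GSet_mul (hSh A hA) (psi_mem_GSet.2 hN), GSet_mul (psi_mem_GSet.2 hN) (hSh A hA)⟩
  · intro D k hD hk N hN _
    have hS : ∀ a, a ∉ D → a.1 ∈ S := fun a ha => by
      by_contra hc
      exact ha (hD (mem_filter.2 ⟨mem_univ _, hc⟩))
    have h1 := hN.1 k k le_rfl
    rw [one_apply_eq] at h1
    obtain ⟨u, hu⟩ := isUnit_one_add h1
    rw [add_sub_cancel] at hu
    have hu1 : (u : Rm p m) - 1 ∈ Ideal.span {tt p m} := hu.symm ▸ h1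
    refine ⟨u, hu.symm, fun a ha hak => ?_, fun b hb hbk => ?_, fun l hl hlk => ?_⟩
    · refine tv_mem hn hak (hS a ha) (hS k hk) fun hle => ?_
      have := hN.1 a k hle
      rw [one_apply_ne hak, sub_zero] at this
      exact neg_mem (Ideal.mul_mem_right _ _ this)
    · refine tv_mem hn hbk.symm (hS k hk) (hS b hb) fun hle => ?_
      have := hN.1 k b hle
      rw [one_apply_ne hbk.symm, sub_zero] at this
      exact neg_mem (Ideal.mul_mem_left _ _ this)
    · have := dg_mem (S := S) hn hlk (hS l hl) (hS k hk) u hu1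
      rwa [← dg_swap hlk] at this
  · intro P Q hPQ
    simp only [mem_filter, mem_univ, true_and] at hPQ
    exact (psi_mem_GSet.1 (hG.symm ▸ hg)).2 P Q hPQ

end Vale.Agent.P067.Full.Grp
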