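import Mathlib

/-!
Elementary matrices in the special linear group: entries, sums, inverses, commutators.
-/

open Matrix

noncomputable section

namespace Vale.Agent.P067.Full.Grp

variable {ι : Type*} [Fintype ι] [DecidableEq ι] {R S : Type*} [CommRing R] [CommRing S]

/-- The elementary matrix `1 + x E_ab`, `1` if `a = b`. -/
def tv (a b : ι) (x : R) : Matrix.SpecialLinearGroup ι R :=
  if h : a = b then 1
  else ⟨Matrix.transvection a b x, Matrix.det_transvection_of_ne a b h x⟩

lemma tv_coe {a b : ι} (h : a ≠ b) (x : R) :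
    (tv a b x : Matrix ι ι R) = Matrix.transvection a b x := by
  rw [show tv a b x = ⟨transvection a b x, det_transvection_of_ne a b h x⟩ from dif_neg h]

lemma tv_mul_apply {a b : ι} (h : a ≠ b) (x : R) (g : Matrix.SpecialLinearGroup ι R)
    (i j : ι) : (tv a b x * g).1 i j = g.1 i j + if i = a then x * g.1 b j else 0 := by
  show ((tv a b x).1 * g.1) i j = _
  rw [tv_coe h]
  split_ifs with hi
  · subst hi; simp
  · simp [hi]

lemma mul_tv_apply {a b : ι} (h : a ≠ b) (x : R) (g : Matrix.SpecialLinearGroup ι R)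
    (i j : ι) : (g * tv a b x).1 i j = g.1 i j + if j = b then x * g.1 i a else 0 := by
  show (g.1 * (tv a b x).1) i j = _
  rw [tv_coe h]
  split_ifs with hj
  · subst hj; simp
  · simp [hj]

lemma tv_zero (a b : ι) : tv a b (0 : R) = 1 := by
  by_cases h : a = b
  · simp [tv, h]
  · exact Subtype.ext (show (tv a b (0 : R)).1 = 1 by rw [tv_coe h]; simp)

lemma tv_add (a b : ι) (x y : R) : tv a b (x + y) = tv a b x * tv a b y := by
  by_cases h : a = b
  · simp [tv, h]
  · refine Subtype.ext ?_
    show (tv a b (x + y)).1 = (tv a b x).1 * (tv a b y).1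
    rw [tv_coe h, tv_coe h, tv_coe h, transvection_mul_transvection_same a b h]

lemma tv_inv (a b : ι) (x : R) : (tv a b x)⁻¹ = tv a b (-x) := by
  refine inv_eq_of_mul_eq_one_right ?_
  rw [← tv_add, add_neg_cancel, tv_zero]

lemma map_tv (f : R →+* S) (a b : ι) (x : R) :
    Matrix.SpecialLinearGroup.map f (tv a b x) = tv a b (f x) := by
  by_cases h : a = b
  · simp [tv, h]
  · refine Subtype.ext ?_
    show f.mapMatrix (tv a b x).1 = _
    rw [tv_coe h, tv_coe h]
    ext i j
    simp only [RingHom.mapMatrix_apply, Matrix.map_apply, transvection, Matrix.add_apply, map_add]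
    congr 1
    · by_cases hij : i = j <;> simp [one_apply, hij]
    · by_cases hij : a = i ∧ b = j <;> simp [Matrix.single, hij]

lemma tv_comm {a b c : ι} (hab : a ≠ b) (hbc : b ≠ c) (hac : a ≠ c) (x y : R) :
    tv a b x * tv b c y * tv a b (-x) * tv b c (-y) = tv a c (x * y) := by
  refine Subtype.ext ?_
  show (tv a b x).1 * (tv b c y).1 * (tv a b (-x)).1 * (tv b c (-y)).1 = (tv a c (x * y)).1
  simp only [tv_coe hab, tv_coe hbc, tv_coe hac, transvection]
  simp only [add_mul, mul_add, one_mul, mul_one, add_zero,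
    single_mul_single_same, single_mul_single_of_ne, hab.symm, hbc.symm, hac.symm,
    Ne, not_false_eq_true]
  have hneg : ∀ (i j : ι) (z : R), single i j (-z) = -single i j z := fun i j z => by
    ext k l
    by_cases hkl : i = k ∧ j = l <;> simp [Matrix.single, hkl]
  simp only [mul_neg, neg_mul, neg_neg, hneg]
  abel

lemma tv_mem_comm {H : Subgroup (Matrix.SpecialLinearGroup ι R)} {a b c : ι}
    (hab : a ≠ b) (hbc : b ≠ c) (hac : a ≠ c) {x y : R} (hx : tv a b x ∈ H) (hy : tv b c y ∈ H) :
    tv a c (x * y) ∈ H := by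
  rw [← tv_comm hab hbc hac, ← tv_inv, ← tv_inv]
  exact H.mul_mem (H.mul_mem (H.mul_mem hx hy) (H.inv_mem hx)) (H.inv_mem hy)

end Vale.Agent.P067.Full.Grp
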